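import Vale.Agent.P235.H510.Ear

/-! P235 LL, section (2): the coordinate of a piece `(P, τ)` of a domain `U`. -/

namespace Vale.Agent.P235.H510

open SimpleGraph

variable {V : Type} {G : SimpleGraph V} {l : Sym2 V → ℝ} {U P : Set V}

/-- Vertices of `U` with a neighbour outside `U ∪ P`. -/
def SP (G : SimpleGraph V) (U P : Set V) : Set V := {v | v ∈ U ∧ ∃ b, b ∉ U ∧ b ∉ P ∧ G.Adj v b}

/-- `(c, s)` is the coordinate on `U` of the piece `P` with potential `τ`; `ct` is `c~`. -/
structure IsCoord (G : SimpleGraph V) (l : Sym2 V → ℝ) (U P : Set V) (τ ct c s : V → ℝ) :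
    Prop where
  ct_le : ∀ v v' b (w : G.Walk v v'), (∀ z ∈ w.support, z ∈ U) → b ∈ P → G.Adj v' b →
    ct v ≤ wl l w + l s(v', b) + τ b
  ct_att : ∀ v ∈ U, ∃ v' b, ∃ w : G.Walk v v', (∀ z ∈ w.support, z ∈ U) ∧ b ∈ P ∧ G.Adj v' b ∧
    ct v = wl l w + l s(v', b) + τ b
  cP : ∀ b ∈ P, c b = τ b
  cS : ∀ v ∈ SP G U P, c v = ct v
  sP : ∀ b ∈ P, s b = 1
  sS : ∀ v ∈ SP G U P, s v = 1
  s0 : ∀ v, 0 ≤ s v
  s1 : ∀ v, s v ≤ 1
  edge : ∀ u v, u ∈ U → v ∈ U → G.Adj u v → |c u - c v| ≤ min (s u) (s v) * l s(u, v)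
  dart : ∀ u b, u ∈ U → b ∈ P → G.Adj u b → |c u - τ b| ≤ s u * l s(u, b)
  up : ∀ v ∈ U, v ∉ SP G U P → 0 < s v → ∃ y, (y ∈ U ∨ y ∈ P) ∧ G.Adj v y ∧ s v ≤ s y ∧
    c y - c v = s v * l s(v, y)
  dn : ∀ v ∈ U, 0 < s v → ∃ y, (y ∈ U ∨ y ∈ P) ∧ G.Adj v y ∧ s v ≤ s y ∧
    c v - c y = s v * l s(v, y)
  ge : ∀ m, (∀ b ∈ P, m ≤ τ b) → ∀ v ∈ U, m ≤ c v
  gt : ∀ m, (∀ b ∈ P, m ≤ τ b) → ∀ v ∈ U, 0 < s v → m < c v

/-- The minimum `c~` exists. -/
theorem exists_ct [Finite V] (hl : ∀ e ∈ G.edgeSet, 0 < l e)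
    (hU : ∀ u ∈ U, ∀ v ∈ U, ∃ w : G.Walk u v, ∀ z ∈ w.support, z ∈ U)
    (hP : ∃ v ∈ U, ∃ b ∈ P, G.Adj v b) (τ : V → ℝ) : ∃ ct : V → ℝ,
      (∀ v v' b (w : G.Walk v v'), (∀ z ∈ w.support, z ∈ U) → b ∈ P → G.Adj v' b →
        ct v ≤ wl l w + l s(v', b) + τ b) ∧
      (∀ v ∈ U, ∃ v' b, ∃ w : G.Walk v v', (∀ z ∈ w.support, z ∈ U) ∧ b ∈ P ∧ G.Adj v' b ∧
        ct v = wl l w + l s(v', b) + τ b) := by
  classical
  have := Fintype.ofFinite V
  have hmain : ∀ v, ∃ r : ℝ, (∀ v' b (w : G.Walk v v'), (∀ z ∈ w.support, z ∈ U) → b ∈ P →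
      G.Adj v' b → r ≤ wl l w + l s(v', b) + τ b) ∧
      (v ∈ U → ∃ v' b, ∃ w : G.Walk v v', (∀ z ∈ w.support, z ∈ U) ∧ b ∈ P ∧ G.Adj v' b ∧
        r = wl l w + l s(v', b) + τ b) := by
    intro v
    by_cases hv : v ∈ U
    · let I := Σ v' : V, Σ b : V, G.Path v v'
      let T : Set I := {i | (∀ z ∈ i.2.2.1.support, z ∈ U) ∧ i.2.1 ∈ P ∧ G.Adj i.1 i.2.1}
      let g : I → ℝ := fun i => wl l i.2.2.1 + l s(i.1, i.2.1) + τ i.2.1
      have hfin : Finite I := inferInstance
      obtain ⟨v0, hv0, b0, hb0, hadj0⟩ := hP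
      obtain ⟨w0, hw0⟩ := hU v hv v0 hv0
      have hne : T.Nonempty := ⟨⟨v0, b0, ⟨w0.bypass, w0.bypass_isPath⟩⟩,
        fun z hz => hw0 z (w0.support_bypass_subset_support hz), hb0, hadj0⟩
      obtain ⟨i, hi, hmin⟩ := Set.exists_min_image T g (Set.toFinite T) hne
      refine ⟨g i, ?_, fun _ => ⟨i.1, i.2.1, i.2.2.1, hi.1, hi.2.1, hi.2.2, rfl⟩⟩
      intro v' b w hw hb hadj
      have h1 := hmin ⟨v', b, ⟨w.bypass, w.bypass_isPath⟩⟩
        ⟨fun z hz => hw z (w.support_bypass_subset_support hz), hb, hadj⟩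
      have h2 := wl_bypass hl w
      change g i ≤ wl l w.bypass + l s(v', b) + τ b at h1
      linarith
    · exact ⟨0, fun v' b w hw => absurd (hw v w.start_mem_support) hv, fun h => absurd h hv⟩
  choose ct h1 h2 using hmain
  exact ⟨ct, h1, h2⟩

/-- Edges of `U` and darts to `P`. -/
def HG (G : SimpleGraph V) (U P : Set V) : SimpleGraph V where
  Adj u v := G.Adj u v ∧ ((u ∈ U ∧ (v ∈ U ∨ v ∈ P)) ∨ (v ∈ U ∧ (u ∈ U ∨ u ∈ P)))
  symm := ⟨fun _ _ h => ⟨h.1.symm, h.2.symm⟩⟩
  loopless := ⟨fun _ h => h.1.ne rfl⟩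

theorem HG_le : HG G U P ≤ G := fun _ _ h => h.1

/-- A walk of `HG` avoiding `P`, starting in `U`, as a walk of `G` inside `U`. -/
theorem toU {x y : V} (w : (HG G U P).Walk x y) (hx : x ∈ U) (hw : ∀ z ∈ w.support, z ∉ P) :
    y ∈ U ∧ ∃ w' : G.Walk x y, (∀ z ∈ w'.support, z ∈ U) ∧ wl l w' = wl l w := by
  induction w with
  | nil =>
    refine ⟨hx, Walk.nil, ?_, by simp⟩
    intro z hz
    rw [Walk.support_nil, List.mem_singleton] at hz
    rw [hz]
    exact hx
  | cons h w ih =>
    rename_i u v t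
    have hvP : v ∉ P := hw v (by simp)
    have hv : v ∈ U := by
      rcases h.2 with ⟨-, h2 | h2⟩ | ⟨h2, -⟩
      · exact h2
      · exact absurd h2 hvP
      · exact h2
    obtain ⟨h1, w', h2, h3⟩ := ih hv (fun z hz => hw z (by simp [hz]))
    refine ⟨h1, Walk.cons h.1 w', ?_, by rw [wl_cons, wl_cons, h3]⟩
    intro z hz
    rw [Walk.support_cons, List.mem_cons] at hz
    rcases hz with rfl | hz
    · exact hx
    · exact h2 z hz

/-- Walks of `G` inside `U` are walks of `HG`. -/
theorem ofU {x y : V} (w : G.Walk x y) (hw : ∀ z ∈ w.support, z ∈ U) :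
    ∃ w' : (HG G U P).Walk x y, w'.support = w.support ∧ wl l w' = wl l w := by
  induction w with
  | nil => exact ⟨Walk.nil, by simp, by simp⟩
  | cons h w ih =>
    rename_i u v t
    obtain ⟨w', h1, h2⟩ := ih (fun z hz => hw z (by simp [hz]))
    have hu : u ∈ U := hw u (by simp)
    have hv : v ∈ U := hw v (by simp)
    have huv : (HG G U P).Adj u v := ⟨h, Or.inl ⟨hu, Or.inl hv⟩⟩
    refine ⟨Walk.cons huv w', ?_, ?_⟩
    · rw [Walk.support_cons, Walk.support_cons, h1]
    · rw [wl_cons, wl_cons, h2]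

theorem coord [Finite V] (hl : ∀ e ∈ G.edgeSet, 0 < l e) (hUP : Disjoint U P)
    (hU : ∀ u ∈ U, ∀ v ∈ U, ∃ w : G.Walk u v, ∀ z ∈ w.support, z ∈ U)
    (hP : ∃ v ∈ U, ∃ b ∈ P, G.Adj v b) {τ : V → ℝ}
    (ha : ∀ b ∈ P, ∀ b' ∈ P, ∀ v v' (w : G.Walk v v'), (∀ z ∈ w.support, z ∈ U) → G.Adj v b →
      G.Adj v' b' → τ b' - τ b ≤ l s(v, b) + wl l w + l s(v', b')) :
    ∃ ct c s : V → ℝ, IsCoord G l U P τ ct c s := by
  classical
  obtain ⟨ct, hct, hct'⟩ := exists_ct hl hU hP τ
  have hnP : ∀ v ∈ U, v ∉ P := fun v hv hvP => Set.disjoint_left.1 hUP hv hvP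
  -- Lipschitz properties of `ct`
  have L1 : ∀ a b (w : G.Walk a b), (∀ z ∈ w.support, z ∈ U) → ct b ≤ ct a + wl l w := by
    intro a b w hw
    obtain ⟨v', p, w', h1, h2, h3, h4⟩ := hct' a (hw a w.start_mem_support)
    have h5 := hct b v' p (w.reverse.append w') (by
      intro z hz
      rw [Walk.mem_support_append_iff, Walk.support_reverse, List.mem_reverse] at hz
      exact hz.elim (hw z) (h1 z)) h2 h3
    rw [wl_append, wl_reverse] at h5
    linarith
  have L2 : ∀ a y b (w : G.Walk a y), (∀ z ∈ w.support, z ∈ U) → b ∈ P → G.Adj y b →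
      τ b ≤ ct a + (wl l w + l s(y, b)) := by
    intro a y b w hw hb hyb
    obtain ⟨v', p, w', h1, h2, h3, h4⟩ := hct' a (hw a w.start_mem_support)
    have h5 := ha p h2 b hb v' y (w'.reverse.append w) (by
      intro z hz
      rw [Walk.mem_support_append_iff, Walk.support_reverse, List.mem_reverse] at hz
      exact hz.elim (h1 z) (hw z)) h3 hyb
    rw [wl_append, wl_reverse] at h5
    linarith
  -- the graph and the data
  set H := HG G U P with hH
  have hlH : ∀ e ∈ H.edgeSet, 0 < l e := fun e he => hl e (SimpleGraph.edgeSet_mono HG_le he)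
  set S : Set V := P ∪ SP G U P with hS
  set f : V → ℝ := fun v => if v ∈ P then τ v else ct v with hf
  have hfP : ∀ v ∈ P, f v = τ v := fun v hv => by simp [hf, hv]
  have hfU : ∀ v ∈ U, f v = ct v := fun v hv => by simp [hf, hnP v hv]
  have hSU : ∀ v ∈ S, v ∉ P → v ∈ U := fun v hv hvP => (hv.resolve_left hvP).1
  have hout : ∀ v, v ∉ S → v ∉ P := fun v hv h => hv (Or.inl h)
  have hadjU : ∀ a x, x ∉ S → H.Adj a x → x ∈ U := by
    intro a x hx hax
    rcases hax.2 with ⟨-, h | h⟩ | ⟨h, -⟩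
    · exact h
    · exact absurd h (hout x hx)
    · exact h
  obtain ⟨c, s, hcS, hsS, h01, hlip, hnb, hreal⟩ := ear H l hlH S f (by
    intro a haS b hbS x y w hw hax hyb
    change f b - f a ≤ l s(a, x) + wl l w + l s(y, b)
    have hxS : x ∉ S := hw x w.start_mem_support
    have hyS : y ∉ S := hw y w.end_mem_support
    have hxU : x ∈ U := hadjU a x hxS hax
    obtain ⟨hyU, w', hw', hlen⟩ := toU (l := l) w hxU (fun z hz => hout z (hw z hz))
    rw [← hlen]
    have hw'' : ∀ z ∈ w'.reverse.support, z ∈ U := fun z hz => by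
      rw [Walk.support_reverse, List.mem_reverse] at hz
      exact hw' z hz
    by_cases haP : a ∈ P
    · by_cases hbP : b ∈ P
      · rw [hfP a haP, hfP b hbP]
        have h1 := ha a haP b hbP x y w' hw' hax.1.symm hyb.1
        rw [Sym2.eq_swap (a := a) (b := x)]
        exact h1
      · have hbU := hSU b hbS hbP
        rw [hfP a haP, hfU b hbU]
        have h1 := hct b x a (Walk.cons hyb.1.symm w'.reverse) (by
          intro z hz
          rw [Walk.support_cons, List.mem_cons] at hz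
          rcases hz with rfl | hz
          · exact hbU
          · exact hw'' z hz) haP hax.1.symm
        rw [wl_cons, wl_reverse, Sym2.eq_swap (a := b) (b := y),
          Sym2.eq_swap (a := x) (b := a)] at h1
        linarith
    · have haU := hSU a haS haP
      have hcons : ∀ z ∈ (Walk.cons hax.1 w').support, z ∈ U := by
        intro z hz
        rw [Walk.support_cons, List.mem_cons] at hz
        rcases hz with rfl | hz
        · exact haU
        · exact hw' z hz
      rw [hfU a haU]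
      by_cases hbP : b ∈ P
      · rw [hfP b hbP]
        have h1 := L2 a y b (Walk.cons hax.1 w') hcons hbP hyb.1
        rw [wl_cons] at h1
        linarith
      · have hbU := hSU b hbS hbP
        rw [hfU b hbU]
        have h1 := L1 a b ((Walk.cons hax.1 w').concat hyb.1) (by
          intro z hz
          rw [Walk.support_concat, List.mem_append, List.mem_singleton] at hz
          rcases hz with hz | rfl
          · exact hcons z hz
          · exact hbU)
        rw [wl_concat, wl_cons] at h1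
        linarith) (by
    intro a haS b hbS hab
    by_cases haP : a ∈ P
    · by_cases hbP : b ∈ P
      · rcases hab.2 with ⟨h, -⟩ | ⟨h, -⟩
        · exact absurd haP (hnP a h)
        · exact absurd hbP (hnP b h)
      · have hbU := hSU b hbS hbP
        rw [hfP a haP, hfU b hbU]
        have h1 := hct b b a Walk.nil (by
          intro z hz
          rw [Walk.support_nil, List.mem_singleton] at hz
          rw [hz]
          exact hbU) haP hab.1.symm
        rw [wl_nil, Sym2.eq_swap (a := b) (b := a)] at h1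
        linarith
    · have haU := hSU a haS haP
      rw [hfU a haU]
      by_cases hbP : b ∈ P
      · rw [hfP b hbP]
        have h1 := L2 a a b Walk.nil (by
          intro z hz
          rw [Walk.support_nil, List.mem_singleton] at hz
          rw [hz]
          exact haU) hbP hab.1
        rw [wl_nil] at h1
        linarith
      · have hbU := hSU b hbS hbP
        rw [hfU b hbU]
        have h1 := L1 a b (Walk.cons hab.1 Walk.nil) (by
          intro z hz
          rw [Walk.support_cons, Walk.support_nil, List.mem_cons, List.mem_singleton] at hz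
          rcases hz with rfl | rfl
          · exact haU
          · exact hbU)
        rw [wl_cons, wl_nil] at h1
        linarith)
  have hcP : ∀ b ∈ P, c b = τ b := fun b hb => by rw [hcS b (Or.inl hb), hfP b hb]
  have hcSP : ∀ v ∈ SP G U P, c v = ct v := fun v hv => by rw [hcS v (Or.inr hv), hfU v hv.1]
  have hedge : ∀ u v, u ∈ U → v ∈ U → G.Adj u v →
      |c u - c v| ≤ min (s u) (s v) * l s(u, v) := fun u v hu hv huv =>
    hlip u v ⟨huv, Or.inl ⟨hu, Or.inl hv⟩⟩
  have hdart : ∀ u b, u ∈ U → b ∈ P → G.Adj u b → |c u - τ b| ≤ s u * l s(u, b) := by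
    intro u b hu hb hub
    have h1 := hlip u b ⟨hub, Or.inl ⟨hu, Or.inr hb⟩⟩
    rw [hcP b hb, hsS b (Or.inl hb), min_eq_left (h01 u).2] at h1
    exact h1
  have hHU : ∀ v ∈ U, ∀ y, H.Adj v y → (y ∈ U ∨ y ∈ P) := by
    intro v hv y h
    rcases h.2 with ⟨-, h⟩ | ⟨h, -⟩
    · exact h
    · exact Or.inl h
  -- up and down neighbours
  have hup : ∀ v ∈ U, v ∉ SP G U P → 0 < s v → ∃ y, (y ∈ U ∨ y ∈ P) ∧ G.Adj v y ∧ s v ≤ s y ∧
      c y - c v = s v * l s(v, y) := by
    intro v hv hvS hsv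
    obtain ⟨⟨y, h1, h2, h3⟩, -⟩ := hnb v (fun h => h.elim (hnP v hv) hvS) hsv
    exact ⟨y, hHU v hv y h1, h1.1, h2, h3⟩
  have hdn : ∀ v ∈ U, 0 < s v → ∃ y, (y ∈ U ∨ y ∈ P) ∧ G.Adj v y ∧ s v ≤ s y ∧
      c v - c y = s v * l s(v, y) := by
    intro v hv hsv
    by_cases hvS : v ∈ SP G U P
    · obtain ⟨v', b, w, hw, hb, hadj, hval⟩ := hct' v hv
      have hsv1 : s v = 1 := hsS v (Or.inr hvS)
      rw [hsv1]
      have hcb : c b = τ b := hcP b hb
      have hle : ∀ p q (u : H.Walk p q), c p - c q ≤ wl l u := by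
        intro p q u
        induction u with
        | nil => simp
        | cons h w ih =>
          rename_i p q r
          have h1 := (abs_le.1 (hlip p q h)).2
          have h2 : min (s p) (s q) * l s(p, q) ≤ 1 * l s(p, q) :=
            mul_le_mul_of_nonneg_right ((min_le_left _ _).trans (h01 p).2)
              (hlH _ (H.mem_edgeSet.2 h)).le
          rw [wl_cons]
          linarith
      obtain ⟨w1, hw1, hlen1⟩ := ofU (P := P) (l := l) w hw
      have hv'b : H.Adj v' b := ⟨hadj, Or.inl ⟨hw v' w.end_mem_support, Or.inr hb⟩⟩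
      have hone := hreal b (Or.inl hb) v (w1.concat hv'b) (by
        change c v - c b = wl l (w1.concat hv'b)
        rw [wl_concat, hlen1, hcSP v hvS, hcb, hval]
        ring)
      have htot : c v - c b = wl l (w1.concat hv'b) := by
        rw [wl_concat, hlen1, hcSP v hvS, hcb, hval]
        ring
      generalize w1.concat hv'b = W at hone htot
      cases W with
      | nil => exact absurd hb (hnP v hv)
      | cons h W' =>
        rename_i y
        refine ⟨y, hHU v hv y h, h.1, ?_, ?_⟩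
        · rw [hone y (by simp)]
        · have h1 := (abs_le.1 (hlip v y h)).2
          have h2 : min (s v) (s y) * l s(v, y) ≤ 1 * l s(v, y) :=
            mul_le_mul_of_nonneg_right ((min_le_left _ _).trans (h01 v).2)
              (hlH _ (H.mem_edgeSet.2 h)).le
          have h3 := hle _ _ W'
          rw [wl_cons] at htot
          linarith
    · obtain ⟨-, ⟨y, h1, h2, h3⟩⟩ := hnb v (fun h => h.elim (hnP v hv) hvS) hsv
      exact ⟨y, hHU v hv y h1, h1.1, h2, h3⟩
  -- the minimum principle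
  have hge : ∀ m, (∀ b ∈ P, m ≤ τ b) → ∀ v ∈ U, m ≤ c v := by
    intro m hm
    by_contra hcon
    push Not at hcon
    obtain ⟨u0, hu0, hlt0⟩ := hcon
    obtain ⟨v0, hv0, hmin⟩ := Set.exists_min_image U c (Set.toFinite U) ⟨u0, hu0⟩
    have hltm : c v0 < m := lt_of_le_of_lt (hmin u0 hu0) hlt0
    -- every minimiser is flat
    have hflat : ∀ v ∈ U, c v = c v0 → s v = 0 := by
      intro v hv hcv
      by_contra hs0
      have hpos : 0 < s v := lt_of_le_of_ne (h01 v).1 (Ne.symm hs0)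
      obtain ⟨y, hy, hadj, -, hval⟩ := hdn v hv hpos
      have hlpos := hl _ (G.mem_edgeSet.2 hadj)
      have hlt : c y < c v0 := by
        have := mul_pos hpos hlpos
        rw [← hcv]
        linarith
      rcases hy with hy | hy
      · exact absurd (hmin y hy) (not_le.2 hlt)
      · have h1 := hm y hy
        rw [← hcP y hy] at h1
        linarith
    have hspread : ∀ a b (w : G.Walk a b), (∀ z ∈ w.support, z ∈ U) → c a = c v0 →
        c b = c v0 := by
      intro a b w
      induction w with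
      | nil => exact fun _ h => h
      | cons h w ih =>
        rename_i p q r
        intro hw hp
        have hpU := hw p (by simp)
        have hqU := hw q (by simp)
        apply ih (fun z hz => hw z (by simp [hz]))
        have h1 := hedge p q hpU hqU h
        have h2 : min (s p) (s q) * l s(p, q) ≤ 0 := by
          have h3 : min (s p) (s q) ≤ 0 := (min_le_left _ _).trans (hflat p hpU hp).le
          exact mul_nonpos_of_nonpos_of_nonneg h3 (hl _ (G.mem_edgeSet.2 h)).le
        have h3 : c p - c q = 0 := abs_nonpos_iff.1 (h1.trans h2)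
        linarith
    obtain ⟨v1, hv1, b1, hb1, hadj1⟩ := hP
    obtain ⟨w1, hw1⟩ := hU v0 hv0 v1 hv1
    have h1 := hspread v0 v1 w1 hw1 rfl
    have h2 := hdart v1 b1 hv1 hb1 hadj1
    rw [hflat v1 hv1 h1, zero_mul] at h2
    have h3 : c v1 - τ b1 = 0 := abs_nonpos_iff.1 h2
    have h4 := hm b1 hb1
    linarith
  refine ⟨ct, c, s, hct, hct', hcP, hcSP, fun b hb => hsS b (Or.inl hb),
    fun v hv => hsS v (Or.inr hv), fun v => (h01 v).1, fun v => (h01 v).2, hedge, hdart, hup, hdn,
    hge, ?_⟩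
  intro m hm v hv hsv
  obtain ⟨y, hy, hadj, -, hval⟩ := hdn v hv hsv
  have h1 := mul_pos hsv (hl _ (G.mem_edgeSet.2 hadj))
  rcases hy with hy | hy
  · have h2 := hge m hm y hy
    linarith
  · have h2 := hm y hy
    rw [← hcP y hy] at h2
    linarith

end Vale.Agent.P235.H510
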