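import Vale.Agent.P235.Defs

/-! P235 LL, section (2): the steepest-ear (absolutely minimal) extension on a finite graph. -/

namespace Vale.Agent.P235.H510

open SimpleGraph

variable {V : Type}

/-- Length of a walk. -/
noncomputable def wl {H : SimpleGraph V} (l : Sym2 V → ℝ) {x y : V} (w : H.Walk x y) : ℝ :=
  (w.edges.map l).sum

@[simp] theorem wl_nil {H : SimpleGraph V} (l : Sym2 V → ℝ) (x : V) :
    wl l (Walk.nil : H.Walk x x) = 0 := by simp [wl]

@[simp] theorem wl_cons {H : SimpleGraph V} (l : Sym2 V → ℝ) {x y z : V} (h : H.Adj x y)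
    (w : H.Walk y z) : wl l (Walk.cons h w) = l s(x, y) + wl l w := by simp [wl]

@[simp] theorem wl_append {H : SimpleGraph V} (l : Sym2 V → ℝ) {x y z : V} (w : H.Walk x y)
    (w' : H.Walk y z) : wl l (w.append w') = wl l w + wl l w' := by simp [wl]

@[simp] theorem wl_concat {H : SimpleGraph V} (l : Sym2 V → ℝ) {x y z : V} (w : H.Walk x y)
    (h : H.Adj y z) : wl l (w.concat h) = wl l w + l s(y, z) := by
  simp [wl, List.concat_eq_append]

@[simp] theorem wl_reverse {H : SimpleGraph V} (l : Sym2 V → ℝ) {x y : V} (w : H.Walk x y) :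
    wl l w.reverse = wl l w := by
  simp [wl, List.sum_reverse, List.map_reverse]

theorem wl_nonneg {H : SimpleGraph V} {l : Sym2 V → ℝ} (hl : ∀ e ∈ H.edgeSet, 0 < l e) {x y : V}
    (w : H.Walk x y) : 0 ≤ wl l w := by
  induction w with
  | nil => simp
  | cons h w ih =>
    rw [wl_cons]
    have := hl _ (H.mem_edgeSet.2 h)
    linarith

theorem sum_subset_le {α : Type*} {A B : List α} (hA : A.Nodup) (hAB : A ⊆ B) {g : α → ℝ}
    (hg : ∀ e ∈ B, 0 ≤ g e) : (A.map g).sum ≤ (B.map g).sum := by
  obtain ⟨C, hC, hCB⟩ := List.subperm_of_subset hA hAB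
  rw [← (hC.map g).sum_eq]
  exact (hCB.map g).sum_le_sum (by
    intro z hz
    obtain ⟨e, he, rfl⟩ := List.mem_map.1 hz
    exact hg e he)

theorem wl_bypass [DecidableEq V] {H : SimpleGraph V} {l : Sym2 V → ℝ}
    (hl : ∀ e ∈ H.edgeSet, 0 < l e) {x y : V} (w : H.Walk x y) : wl l w.bypass ≤ wl l w :=
  sum_subset_le w.bypass_isPath.isTrail.edges_nodup w.edges_bypass_subset_edges
    fun e he => (hl e (w.edges_subset_edgeSet he)).le

/-- `f` has slope at most `σ` along every walk between two vertices of `S` whose interior is nonempty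
and outside `S`. -/
def SL (H : SimpleGraph V) (l : Sym2 V → ℝ) (S : Set V) (f : V → ℝ) (σ : ℝ) : Prop :=
  ∀ a ∈ S, ∀ b ∈ S, ∀ x y, ∀ w : H.Walk x y, (∀ z ∈ w.support, z ∉ S) → H.Adj a x → H.Adj y b →
    f b - f a ≤ σ * (l s(a, x) + wl l w + l s(y, b))

/-- The properties of the extension `c` with slopes `s`. -/
structure Good (H : SimpleGraph V) (l : Sym2 V → ℝ) (S : Set V) (f : V → ℝ) (σ : ℝ)
    (c s : V → ℝ) : Prop where
  eq : ∀ v ∈ S, c v = f v
  nn : ∀ v ∉ S, 0 ≤ s v
  le : ∀ v ∉ S, s v ≤ σ
  lip : ∀ v ∉ S, ∀ y, H.Adj v y → |c v - c y| ≤ s v * l s(v, y)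
  up : ∀ v ∉ S, 0 < s v → ∃ y, H.Adj v y ∧ (y ∈ S ∨ s v ≤ s y) ∧ c y - c v = s v * l s(v, y)
  dn : ∀ v ∉ S, 0 < s v → ∃ y, H.Adj v y ∧ (y ∈ S ∨ s v ≤ s y) ∧ c v - c y = s v * l s(v, y)

variable {H : SimpleGraph V} {l : Sym2 V → ℝ}

/-- The degenerate case: all slopes are zero. -/
theorem good_zero {S : Set V} {f : V → ℝ} {σ : ℝ} (hσ : 0 ≤ σ)
    (h0 : SL H l S f 0) : ∃ c s : V → ℝ, Good H l S f σ c s := by
  classical
  let R : V → Set V := fun v => {a | a ∈ S ∧ ∃ x, H.Adj a x ∧ ∃ w : H.Walk x v,
    ∀ z ∈ w.support, z ∉ S}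
  have hR : ∀ v a a', a ∈ R v → a' ∈ R v → f a' ≤ f a := by
    rintro v a a' ⟨ha, x, hax, w, hw⟩ ⟨ha', x', hax', w', hw'⟩
    have := h0 a ha a' ha' x x' (w.append w'.reverse) (by
      intro z hz
      rw [Walk.mem_support_append_iff, Walk.support_reverse, List.mem_reverse] at hz
      exact hz.elim (hw z) (hw' z)) hax hax'.symm
    linarith
  refine ⟨fun v => if v ∈ S then f v else if h : (R v).Nonempty then f h.choose else 0,
    fun _ => 0, ⟨fun v hv => by simp [hv], fun _ _ => le_rfl, fun _ _ => hσ, ?_,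
      fun _ _ h => absurd h (lt_irrefl _), fun _ _ h => absurd h (lt_irrefl _)⟩⟩
  intro v hv y hvy
  rw [zero_mul]
  simp only [hv, if_false]
  by_cases hy : y ∈ S
  · have hyR : y ∈ R v := ⟨hy, v, hvy.symm, Walk.nil, by
      intro z hz
      rw [Walk.support_nil, List.mem_singleton] at hz
      rw [hz]
      exact hv⟩
    have hne : (R v).Nonempty := ⟨y, hyR⟩
    rw [dif_pos hne, if_pos hy]
    have h1 := hR v _ _ hne.choose_spec hyR
    have h2 := hR v _ _ hyR hne.choose_spec
    rw [abs_le]
    constructor <;> linarith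
  · rw [if_neg hy]
    have key : ∀ u u', u ∉ S → u' ∉ S → H.Adj u u' → ∀ a, a ∈ R u → a ∈ R u' := by
      rintro u u' - hu' huu' a ⟨ha, x, hax, w, hw⟩
      refine ⟨ha, x, hax, w.concat huu', ?_⟩
      intro z hz
      rw [Walk.support_concat, List.mem_append, List.mem_singleton] at hz
      rcases hz with hz | rfl
      · exact hw z hz
      · exact hu'
    by_cases hne : (R v).Nonempty
    · have hne' : (R y).Nonempty := ⟨hne.choose, key v y hv hy hvy _ hne.choose_spec⟩
      rw [dif_pos hne, dif_pos hne']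
      have h3 := key v y hv hy hvy _ hne.choose_spec
      have h1 := hR y _ _ hne'.choose_spec h3
      have h2 := hR y _ _ h3 hne'.choose_spec
      rw [abs_le]
      constructor <;> linarith
    · have hne' : ¬ (R y).Nonempty := by
        rintro ⟨a, ha⟩
        exact hne ⟨a, key y v hy hv hvy.symm a ha⟩
      rw [dif_neg hne, dif_neg hne']
      simp

/-- There is a steepest walk. -/
theorem exists_max [Finite V] (hl : ∀ e ∈ H.edgeSet, 0 < l e) {S : Set V} {f : V → ℝ}
    (h0 : ¬ SL H l S f 0) : ∃ a ∈ S, ∃ b ∈ S, ∃ x y, ∃ w : H.Walk x y, (∀ z ∈ w.support, z ∉ S) ∧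
      H.Adj a x ∧ H.Adj y b ∧ ∃ σ : ℝ, 0 < σ ∧
        f b - f a = σ * (l s(a, x) + wl l w + l s(y, b)) ∧ SL H l S f σ := by
  classical
  have := Fintype.ofFinite V
  -- index type of all candidates
  let I := Σ a : V, Σ b : V, Σ x : V, Σ y : V, H.Path x y
  let T : Set I := {i | i.1 ∈ S ∧ i.2.1 ∈ S ∧ (∀ z ∈ i.2.2.2.2.1.support, z ∉ S) ∧
    H.Adj i.1 i.2.2.1 ∧ H.Adj i.2.2.2.1 i.2.1}
  let L : I → ℝ := fun i => l s(i.1, i.2.2.1) + wl l i.2.2.2.2.1 + l s(i.2.2.2.1, i.2.1)
  let g : I → ℝ := fun i => (f i.2.1 - f i.1) / L i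
  have hfin : Finite I := inferInstance
  have hLpos : ∀ i ∈ T, 0 < L i := by
    rintro ⟨a, b, x, y, w⟩ ⟨-, -, -, h1, h2⟩
    have e1 := hl _ (H.mem_edgeSet.2 h1)
    have e2 := hl _ (H.mem_edgeSet.2 h2)
    have e3 := wl_nonneg hl w.1
    show 0 < l s(a, x) + wl l w.1 + l s(y, b)
    simp only at e1 e2
    linarith
  -- every walk is beaten by a path
  have hwalk : ∀ a ∈ S, ∀ b ∈ S, ∀ x y, ∀ w : H.Walk x y, (∀ z ∈ w.support, z ∉ S) →
      H.Adj a x → H.Adj y b → ∃ i ∈ T, i.1 = a ∧ i.2.1 = b ∧
        L i ≤ l s(a, x) + wl l w + l s(y, b) := by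
    intro a ha b hb x y w hw hax hyb
    refine ⟨⟨a, b, x, y, ⟨w.bypass, w.bypass_isPath⟩⟩,
      ⟨ha, hb, fun z hz => hw z (w.support_bypass_subset_support hz), hax, hyb⟩, rfl, rfl, ?_⟩
    show l s(a, x) + wl l w.bypass + l s(y, b) ≤ _
    have := wl_bypass hl w
    linarith
  -- some candidate has positive rise
  have hpos : ∃ i ∈ T, 0 < f i.2.1 - f i.1 := by
    by_contra hcon
    push Not at hcon
    apply h0
    intro a ha b hb x y w hw hax hyb
    obtain ⟨i, hi, h1, h2, -⟩ := hwalk a ha b hb x y w hw hax hyb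
    have := hcon i hi
    rw [h1, h2] at this
    rw [zero_mul]
    exact this
  obtain ⟨i0, hi0, hr0⟩ := hpos
  obtain ⟨i, hi, hmax⟩ := Set.exists_max_image T g (Set.toFinite T) ⟨i0, hi0⟩
  have hgpos : 0 < g i := lt_of_lt_of_le (div_pos hr0 (hLpos i0 hi0)) (hmax i0 hi0)
  refine ⟨i.1, hi.1, i.2.1, hi.2.1, i.2.2.1, i.2.2.2.1, i.2.2.2.2.1, hi.2.2.1, hi.2.2.2.1,
    hi.2.2.2.2, g i, hgpos, ?_, ?_⟩
  · show _ = g i * L i
    rw [div_mul_cancel₀ _ (hLpos i hi).ne']
  · intro a ha b hb x y w hw hax hyb
    obtain ⟨j, hj, h1, h2, h3⟩ := hwalk a ha b hb x y w hw hax hyb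
    have h4 := hmax j hj
    have h5 : f b - f a = g j * L j := by
      rw [div_mul_cancel₀ _ (hLpos j hj).ne', h1, h2]
    have h6 := hLpos j hj
    rw [h5]
    calc g j * L j ≤ g i * L j := mul_le_mul_of_nonneg_right h4 h6.le
      _ ≤ _ := mul_le_mul_of_nonneg_left h3 hgpos.le

/-- Along a walk ending in `b`, with all edges of slope at most `σ`. -/
theorem rise_le {c : V → ℝ} {σ : ℝ} {S : Set V}
    (hc : ∀ v ∉ S, ∀ y, H.Adj v y → |c v - c y| ≤ σ * l s(v, y)) {x y b : V} (w : H.Walk x y)
    (hw : ∀ z ∈ w.support, z ∉ S) (hyb : H.Adj y b) : c b - c x ≤ σ * (wl l w + l s(y, b)) := by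
  induction w with
  | nil =>
    rw [wl_nil, zero_add]
    have := (abs_le.1 (hc _ (hw _ (by simp)) _ hyb)).1
    linarith
  | cons h w ih =>
    rename_i u v y'
    have h1 := ih (fun z hz => hw z (by simp [hz])) hyb
    have h2 := (abs_le.1 (hc _ (hw u (by simp)) _ h)).1
    rw [wl_cons]
    linarith

theorem ear_aux [Finite V] (hl : ∀ e ∈ H.edgeSet, 0 < l e) : ∀ (n : ℕ) (S : Set V),
    Sᶜ.ncard = n → ∀ (f : V → ℝ) (σ : ℝ), 0 ≤ σ → SL H l S f σ →
      ∃ c s : V → ℝ, Good H l S f σ c s := by
  classical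
  intro n
  induction n with
  | zero =>
    intro S hS f σ hσ hf
    have hS' : Sᶜ = ∅ := (Set.ncard_eq_zero (Set.toFinite _)).1 hS
    have hall : ∀ v, v ∈ S := fun v => by
      by_contra hv
      have : v ∈ Sᶜ := hv
      rw [hS'] at this
      exact this
    exact ⟨f, fun _ => 0, fun v _ => rfl, fun v hv => absurd (hall v) hv,
      fun v hv => absurd (hall v) hv, fun v hv => absurd (hall v) hv,
      fun v hv => absurd (hall v) hv, fun v hv => absurd (hall v) hv⟩
  | succ n ih =>
    intro S hS f σ hσ hf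
    by_cases h0 : SL H l S f 0
    · exact good_zero hσ h0
    obtain ⟨a, ha, b, hb, x, y, w, hw, hax, hyb, τ, hτ, hfab, hSL⟩ := exists_max hl h0
    have hxS : x ∉ S := hw x w.start_mem_support
    have hpos : 0 < l s(a, x) + wl l w + l s(y, b) := by
      have e1 := hl _ (H.mem_edgeSet.2 hax)
      have e2 := hl _ (H.mem_edgeSet.2 hyb)
      have e3 := wl_nonneg hl w
      linarith
    have hτσ : τ ≤ σ := by
      have h1 := hf a ha b hb x y w hw hax hyb
      rw [hfab] at h1
      exact le_of_mul_le_mul_right h1 hpos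
    -- the new pinned set
    set S' : Set V := insert x S with hS'
    set f' : V → ℝ := Function.update f x (f a + τ * l s(a, x)) with hf'
    have hfx : f' x = f a + τ * l s(a, x) := by simp [hf']
    have hfS : ∀ v ∈ S, f' v = f v := fun v hv => by
      rw [hf', Function.update_of_ne]
      rintro rfl
      exact hxS hv
    have hout : ∀ v, v ∉ S' → v ∉ S := fun v hv h => hv (Set.mem_insert_of_mem _ h)
    have hcard : S'ᶜ.ncard = n := by
      have h1 : Sᶜ = insert x S'ᶜ := by
        ext v
        simp only [Set.mem_compl_iff, Set.mem_insert_iff, hS', not_or]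
        constructor
        · intro hv
          by_cases hvx : v = x
          · exact Or.inl hvx
          · exact Or.inr ⟨hvx, hv⟩
        · rintro (rfl | h)
          · exact hxS
          · exact h.2
      have h2 : x ∉ S'ᶜ := fun h => h (Set.mem_insert _ _)
      rw [h1, Set.ncard_insert_of_notMem h2 (Set.toFinite _)] at hS
      omega
    have hSL' : SL H l S' f' τ := by
      intro p hp q hq x1 y1 u hu hpx hyq
      have huS : ∀ z ∈ u.support, z ∉ S := fun z hz => hout z (hu z hz)
      have hupos : 0 < l s(p, x1) + wl l u + l s(y1, q) := by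
        have e1 := hl _ (H.mem_edgeSet.2 hpx)
        have e2 := hl _ (H.mem_edgeSet.2 hyq)
        have e3 := wl_nonneg hl u
        linarith
      rcases Set.mem_insert_iff.1 hp with rfl | hpS
      · rcases Set.mem_insert_iff.1 hq with rfl | hqS
        · rw [sub_self]
          exact (mul_pos hτ hupos).le
        · rw [hfx, hfS q hqS]
          have h1 := hSL a ha q hqS p y1 (Walk.cons hpx u) (by
            intro z hz
            rw [Walk.support_cons, List.mem_cons] at hz
            rcases hz with rfl | hz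
            · exact hxS
            · exact huS z hz) hax hyq
          rw [wl_cons] at h1
          linarith
      · rcases Set.mem_insert_iff.1 hq with rfl | hqS
        · rw [hfx, hfS p hpS]
          have h1 := hSL p hpS b hb x1 y ((u.concat hyq).append w) (by
            intro z hz
            rw [Walk.mem_support_append_iff, Walk.support_concat, List.mem_append,
              List.mem_singleton] at hz
            rcases hz with (hz | rfl) | hz
            · exact huS z hz
            · exact hxS
            · exact hw z hz) hpx hyb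
          rw [wl_append, wl_concat] at h1
          linarith
        · rw [hfS p hpS, hfS q hqS]
          exact hSL p hpS q hqS x1 y1 u huS hpx hyq
    obtain ⟨c, s', hG⟩ := ih S' hcard f' τ hτ.le hSL'
    have hcx : c x = f a + τ * l s(a, x) := by
      rw [hG.eq x (Set.mem_insert _ _), hfx]
    have hcS : ∀ v ∈ S, c v = f v := fun v hv => by
      rw [hG.eq v (Set.mem_insert_of_mem _ hv), hfS v hv]
    set s : V → ℝ := Function.update s' x τ with hs
    have hsx : s x = τ := by simp [hs]
    have hsv : ∀ v, v ≠ x → s v = s' v := fun v hv => by rw [hs, Function.update_of_ne hv]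
    have hnot : ∀ v, v ∉ S → v ≠ x → v ∉ S' := fun v hv hvx h =>
      (Set.mem_insert_iff.1 h).elim hvx hv
    have hsle : ∀ v ∉ S, s v ≤ τ := by
      intro v hv
      by_cases hvx : v = x
      · rw [hvx, hsx]
      · rw [hsv v hvx]
        exact hG.le v (hnot v hv hvx)
    have hlip : ∀ v ∉ S, ∀ z, H.Adj v z → |c v - c z| ≤ s v * l s(v, z) := by
      intro v hv z hvz
      by_cases hvx : v = x
      · subst hvx
        rw [hsx]
        by_cases hz : z ∈ S
        · rw [hcx, hcS z hz, abs_le]
          constructor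
          · have h1 := hSL a ha z hz v v Walk.nil (by
              intro z' hz'
              rw [Walk.support_nil, List.mem_singleton] at hz'
              rw [hz']
              exact hv) hax hvz
            rw [wl_nil] at h1
            linarith
          · have h1 := hSL z hz b hb v y w hw hvz.symm hyb
            rw [Sym2.eq_swap (a := z) (b := v)] at h1
            linarith
        · have hz' : z ∉ S' := hnot z hz hvz.ne'
          have h1 := hG.lip z hz' v hvz.symm
          rw [abs_sub_comm, Sym2.eq_swap (a := v) (b := z)]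
          exact h1.trans (mul_le_mul_of_nonneg_right (hG.le z hz')
            (hl _ (H.mem_edgeSet.2 hvz.symm)).le)
      · rw [hsv v hvx]
        exact hG.lip v (hnot v hv hvx) z hvz
    have hlip' : ∀ v ∉ S, ∀ z, H.Adj v z → |c v - c z| ≤ τ * l s(v, z) := fun v hv z hvz =>
      (hlip v hv z hvz).trans (mul_le_mul_of_nonneg_right (hsle v hv)
        (hl _ (H.mem_edgeSet.2 hvz)).le)
    refine ⟨c, s, hcS, ?_, fun v hv => (hsle v hv).trans hτσ, hlip, ?_, ?_⟩
    · intro v hv
      by_cases hvx : v = x
      · rw [hvx, hsx]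
        exact hτ.le
      · rw [hsv v hvx]
        exact hG.nn v (hnot v hv hvx)
    · intro v hv hsv0
      by_cases hvx : v = x
      · subst hvx
        rw [hsx]
        -- the next vertex of the steepest walk
        have hcb : c b - c v = τ * (wl l w + l s(y, b)) := by
          rw [hcS b hb, hcx]
          linarith
        cases w with
        | nil =>
          rw [wl_nil, zero_add] at hcb
          exact ⟨b, hyb, Or.inl hb, hcb⟩
        | cons h w' =>
          rename_i u
          have hw' : ∀ z ∈ w'.support, z ∉ S := fun z hz => hw z (by simp [hz])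
          have huS : u ∉ S := hw' u w'.start_mem_support
          have h1 := rise_le hlip' w' hw' hyb
          rw [wl_cons] at hcb
          have h2 := hlip v hv u h
          rw [hsx] at h2
          have h3 := (abs_le.1 h2).1
          have h4 : c u - c v = τ * l s(v, u) := by
            apply le_antisymm
            · linarith
            · linarith
          refine ⟨u, h, Or.inr ?_, h4⟩
          have h5 := (abs_le.1 (hlip u huS v h.symm)).2
          rw [h4, Sym2.eq_swap (a := u) (b := v)] at h5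
          exact le_of_mul_le_mul_right h5 (hl _ (H.mem_edgeSet.2 h))
      · rw [hsv v hvx] at hsv0 ⊢
        obtain ⟨z, hz1, hz2, hz3⟩ := hG.up v (hnot v hv hvx) hsv0
        refine ⟨z, hz1, ?_, hz3⟩
        by_cases hzx : z = x
        · right
          rw [hzx, hsx]
          exact hG.le v (hnot v hv hvx)
        · rcases hz2 with hz2 | hz2
          · rcases Set.mem_insert_iff.1 hz2 with h | h
            · exact absurd h hzx
            · exact Or.inl h
          · right
            rw [hsv z hzx]
            exact hz2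
    · intro v hv hsv0
      by_cases hvx : v = x
      · subst hvx
        rw [hsx]
        refine ⟨a, hax.symm, Or.inl ha, ?_⟩
        rw [hcx, hcS a ha, Sym2.eq_swap (a := v) (b := a)]
        ring
      · rw [hsv v hvx] at hsv0 ⊢
        obtain ⟨z, hz1, hz2, hz3⟩ := hG.dn v (hnot v hv hvx) hsv0
        refine ⟨z, hz1, ?_, hz3⟩
        by_cases hzx : z = x
        · right
          rw [hzx, hsx]
          exact hG.le v (hnot v hv hvx)
        · rcases hz2 with hz2 | hz2
          · rcases Set.mem_insert_iff.1 hz2 with h | h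
            · exact absurd h hzx
            · exact Or.inl h
          · right
            rw [hsv z hzx]
            exact hz2

/-- **Steepest-ear extension.** -/
theorem ear [Finite V] (H : SimpleGraph V) (l : Sym2 V → ℝ) (hl : ∀ e ∈ H.edgeSet, 0 < l e)
    (S : Set V) (f : V → ℝ)
    (hf : ∀ a ∈ S, ∀ b ∈ S, ∀ x y, ∀ w : H.Walk x y, (∀ z ∈ w.support, z ∉ S) → H.Adj a x →
      H.Adj y b → f b - f a ≤ l s(a, x) + (w.edges.map l).sum + l s(y, b))
    (hS : ∀ a ∈ S, ∀ b ∈ S, H.Adj a b → f b - f a ≤ l s(a, b)) :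
    ∃ c s : V → ℝ, (∀ v ∈ S, c v = f v) ∧ (∀ v ∈ S, s v = 1) ∧ (∀ v, 0 ≤ s v ∧ s v ≤ 1) ∧
      (∀ v y, H.Adj v y → |c v - c y| ≤ min (s v) (s y) * l s(v, y)) ∧
      (∀ v ∉ S, 0 < s v →
        (∃ y, H.Adj v y ∧ s v ≤ s y ∧ c y - c v = s v * l s(v, y)) ∧
        (∃ y, H.Adj v y ∧ s v ≤ s y ∧ c v - c y = s v * l s(v, y))) ∧
      (∀ b ∈ S, ∀ v, ∀ w : H.Walk v b, c v - c b = (w.edges.map l).sum →
        ∀ z ∈ w.support, s z = 1) := by
  classical
  obtain ⟨c, s0, hG⟩ := ear_aux hl _ S rfl f 1 zero_le_one (by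
    intro a ha b hb x y w hw hax hyb
    rw [one_mul]
    exact hf a ha b hb x y w hw hax hyb)
  have hm : ∀ v y, H.Adj v y → |c v - c y| ≤
      min (if v ∈ S then 1 else s0 v) (if y ∈ S then 1 else s0 y) * l s(v, y) := by
    intro v y hvy
    have hlpos := hl _ (H.mem_edgeSet.2 hvy)
    by_cases hv : v ∈ S
    · by_cases hy : y ∈ S
      · rw [if_pos hv, if_pos hy, min_self, one_mul, hG.eq v hv, hG.eq y hy, abs_le]
        have h1 := hS v hv y hy hvy
        have h2 := hS y hy v hv hvy.symm
        rw [Sym2.eq_swap (a := y) (b := v)] at h2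
        constructor <;> linarith
      · rw [if_pos hv, if_neg hy, min_eq_right (hG.le y hy), abs_sub_comm,
          Sym2.eq_swap (a := v) (b := y)]
        exact hG.lip y hy v hvy.symm
    · by_cases hy : y ∈ S
      · rw [if_neg hv, if_pos hy, min_eq_left (hG.le v hv)]
        exact hG.lip v hv y hvy
      · rw [if_neg hv, if_neg hy]
        rcases min_choice (s0 v) (s0 y) with h | h
        · rw [h]
          exact hG.lip v hv y hvy
        · rw [h, abs_sub_comm, Sym2.eq_swap (a := v) (b := y)]
          exact hG.lip y hy v hvy.symm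
  have h01 : ∀ v, 0 ≤ (if v ∈ S then 1 else s0 v) ∧ (if v ∈ S then 1 else s0 v) ≤ (1 : ℝ) := by
    intro v
    by_cases hv : v ∈ S
    · rw [if_pos hv]
      exact ⟨zero_le_one, le_rfl⟩
    · rw [if_neg hv]
      exact ⟨hG.nn v hv, hG.le v hv⟩
  refine ⟨c, fun v => if v ∈ S then 1 else s0 v, hG.eq, fun v hv => if_pos hv, h01, hm, ?_, ?_⟩
  · intro v hv hsv
    simp only [hv, if_false] at hsv ⊢
    constructor
    · obtain ⟨y, h1, h2, h3⟩ := hG.up v hv hsv
      refine ⟨y, h1, ?_, h3⟩
      by_cases hy : y ∈ S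
      · rw [if_pos hy]
        exact hG.le v hv
      · rw [if_neg hy]
        exact h2.resolve_left hy
    · obtain ⟨y, h1, h2, h3⟩ := hG.dn v hv hsv
      refine ⟨y, h1, ?_, h3⟩
      by_cases hy : y ∈ S
      · rw [if_pos hy]
        exact hG.le v hv
      · rw [if_neg hy]
        exact h2.resolve_left hy
  · intro b hb v w
    have hle : ∀ v' b' (w' : H.Walk v' b'), c v' - c b' ≤ (w'.edges.map l).sum := by
      intro v' b' w'
      induction w' with
      | nil => simp
      | cons h w ih =>
        rename_i p q r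
        have h1 := (abs_le.1 (hm p q h)).2
        have h2 : min (if p ∈ S then 1 else s0 p) (if q ∈ S then 1 else s0 q) * l s(p, q) ≤
            1 * l s(p, q) := mul_le_mul_of_nonneg_right ((min_le_left _ _).trans (h01 p).2)
              (hl _ (H.mem_edgeSet.2 h)).le
        rw [Walk.edges_cons, List.map_cons, List.sum_cons]
        linarith
    induction w with
    | nil =>
      intro _ z hz
      rw [Walk.support_nil, List.mem_singleton] at hz
      rw [hz]
      exact if_pos hb
    | cons h w ih =>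
      rename_i p q r
      intro heq z hz
      rw [Walk.edges_cons, List.map_cons, List.sum_cons] at heq
      have hlpos := hl _ (H.mem_edgeSet.2 h)
      have h1 := (abs_le.1 (hm p q h)).2
      have h2 : min (if p ∈ S then 1 else s0 p) (if q ∈ S then 1 else s0 q) * l s(p, q) ≤
          1 * l s(p, q) := mul_le_mul_of_nonneg_right ((min_le_left _ _).trans (h01 p).2) hlpos.le
      have h3 := hle _ _ w
      rw [Walk.support_cons, List.mem_cons] at hz
      rcases hz with rfl | hz
      · have h4 : 1 * l s(z, q) ≤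
            min (if z ∈ S then 1 else s0 z) (if q ∈ S then 1 else s0 q) * l s(z, q) := by
          linarith
        have h5 := le_of_mul_le_mul_right h4 hlpos
        exact le_antisymm (h01 z).2 (h5.trans (min_le_left _ _))
      · exact ih hb (by linarith) z hz

end Vale.Agent.P235.H510
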