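import Vale.Agent.P235.H510.Coord

/-! P235 LL: consequences of `IsCoord` for the components of `U \ M` (section (3) (a), (b)), and
bridges between walks of `G.induce U` and walks of `G` inside `U`. -/

namespace Vale.Agent.P235.H510

open SimpleGraph

variable {V : Type} {G : SimpleGraph V} {l : Sym2 V → ℝ} {U P : Set V}

/-! ### Bridges -/

/-- Lengths on an induced subgraph. -/
noncomputable def lU (l : Sym2 V → ℝ) (U : Set V) : Sym2 U → ℝ := fun e => l (e.map Subtype.val)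

theorem lU_mk (l : Sym2 V → ℝ) (U : Set V) (x y : U) : lU l U s(x, y) = l s((x : V), (y : V)) := rfl

theorem lU_pos (hl : ∀ e ∈ G.edgeSet, 0 < l e) : ∀ e ∈ (G.induce U).edgeSet, 0 < lU l U e := by
  intro e
  induction e using Sym2.ind with
  | _ x y =>
    intro h
    exact hl _ (G.mem_edgeSet.2 ((G.induce U).mem_edgeSet.1 h))

theorem ofInduce {x y : U} (w : (G.induce U).Walk x y) : ∃ w' : G.Walk (x : V) y,
    (∀ z ∈ w'.support, z ∈ U) ∧ wl l w' = wl (lU l U) w := by
  induction w with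
  | nil =>
    rename_i u
    refine ⟨Walk.nil, ?_, by simp⟩
    intro z hz
    rw [Walk.support_nil, List.mem_singleton] at hz
    rw [hz]
    exact u.2
  | cons h w ih =>
    rename_i u v t
    obtain ⟨w', h1, h2⟩ := ih
    have huv : G.Adj (u : V) v := h
    refine ⟨Walk.cons huv w', ?_, ?_⟩
    · intro z hz
      rw [Walk.support_cons, List.mem_cons] at hz
      rcases hz with rfl | hz
      · exact u.2
      · exact h1 z hz
    · rw [wl_cons, wl_cons, h2, lU_mk]

theorem toInduce {x y : V} (w : G.Walk x y) (hw : ∀ z ∈ w.support, z ∈ U) :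
    ∀ (hx : x ∈ U) (hy : y ∈ U), ∃ w' : (G.induce U).Walk ⟨x, hx⟩ ⟨y, hy⟩,
      wl (lU l U) w' = wl l w := by
  induction w with
  | nil => exact fun hx hy => ⟨Walk.nil, by simp⟩
  | cons h w ih =>
    rename_i u v t
    intro hx hy
    have hv : v ∈ U := hw v (by simp)
    obtain ⟨w', h2⟩ := ih (fun z hz => hw z (by simp [hz])) hv hy
    have huv : (G.induce U).Adj ⟨u, hx⟩ ⟨v, hv⟩ := h
    exact ⟨Walk.cons huv w', by rw [wl_cons, wl_cons, h2, lU_mk]⟩

theorem conn_walks (hc : (G.induce U).Connected) : ∀ u ∈ U, ∀ v ∈ U, ∃ w : G.Walk u v,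
    ∀ z ∈ w.support, z ∈ U := by
  intro u hu v hv
  obtain ⟨w⟩ := hc.preconnected ⟨u, hu⟩ ⟨v, hv⟩
  obtain ⟨w', h1, -⟩ := ofInduce (l := fun _ => 0) w
  exact ⟨w', h1⟩

/-- `coord` with connectedness of `G.induce U` and (a) for the walks of `G.induce U`. -/
theorem coord' [Finite V] (hl : ∀ e ∈ G.edgeSet, 0 < l e) (hUP : Disjoint U P)
    (hU : (G.induce U).Connected) (hP : ∃ v ∈ U, ∃ b ∈ P, G.Adj v b) {τ : V → ℝ}
    (ha : ∀ b ∈ P, ∀ b' ∈ P, ∀ (v v' : U) (w : (G.induce U).Walk v v'), G.Adj v b →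
      G.Adj v' b' → |τ b - τ b'| ≤ l s((v : V), b) + wl (lU l U) w + l s((v' : V), b')) :
    ∃ ct c s : V → ℝ, IsCoord G l U P τ ct c s := by
  refine coord hl hUP (conn_walks hU) hP ?_
  intro b hb b' hb' v v' w hw hvb hvb'
  obtain ⟨w', hw'⟩ := toInduce (l := l) w hw (hw v w.start_mem_support) (hw v' w.end_mem_support)
  have h1 := ha b hb b' hb' _ _ w' hvb hvb'
  rw [hw'] at h1
  have h2 := (abs_le.1 h1).1
  change -(l s(v, b) + wl l w + l s(v', b')) ≤ _ at h2
  linarith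

/-! ### Distances -/

theorem bddW (hl : ∀ e ∈ G.edgeSet, 0 < l e) (x y : V) :
    BddBelow (Set.range fun w : G.Walk x y => (w.edges.map l).sum) :=
  ⟨0, by rintro _ ⟨w, rfl⟩; exact wl_nonneg hl w⟩

theorem dist_le_wl (hl : ∀ e ∈ G.edgeSet, 0 < l e) {x y : V} (w : G.Walk x y) :
    pathDist G l x y ≤ wl l w := ciInf_le (bddW hl x y) w

theorem dist_adj (hl : ∀ e ∈ G.edgeSet, 0 < l e) {x y : V} (h : G.Adj x y) :
    pathDist G l x y ≤ l s(x, y) := by
  have := dist_le_wl hl (Walk.cons h Walk.nil)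
  rwa [wl_cons, wl_nil, add_zero] at this

theorem dist_self_le (hl : ∀ e ∈ G.edgeSet, 0 < l e) (x : V) : pathDist G l x x ≤ 0 := by
  have := dist_le_wl hl (Walk.nil : G.Walk x x)
  rwa [wl_nil] at this

theorem dist_tri (hc : G.Connected) (hl : ∀ e ∈ G.edgeSet, 0 < l e) (x y z : V) :
    pathDist G l x z ≤ pathDist G l x y + pathDist G l y z := by
  have : Nonempty (G.Walk x y) := hc x y
  have : Nonempty (G.Walk y z) := hc y z
  have h2 : ∀ w : G.Walk x y, pathDist G l x z - wl l w ≤ pathDist G l y z := by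
    intro w
    refine le_ciInf fun w' => ?_
    have := dist_le_wl hl (w.append w')
    rw [wl_append] at this
    change _ ≤ wl l w'
    linarith
  have h3 : pathDist G l x z - pathDist G l y z ≤ pathDist G l x y := by
    refine le_ciInf fun w => ?_
    have := h2 w
    change _ ≤ wl l w
    linarith
  linarith

/-- The distance is attained. -/
theorem dist_att [Finite V] (hc : G.Connected) (hl : ∀ e ∈ G.edgeSet, 0 < l e) (x y : V) :
    ∃ w : G.Walk x y, wl l w = pathDist G l x y := by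
  classical
  have := Fintype.ofFinite V
  obtain ⟨w0⟩ := hc.preconnected x y
  have hne : Nonempty (G.Path x y) := ⟨⟨w0.bypass, w0.bypass_isPath⟩⟩
  obtain ⟨p, hp⟩ := Finite.exists_min (fun p : G.Path x y => wl l p.1)
  refine ⟨p.1, le_antisymm ?_ (dist_le_wl hl _)⟩
  have : Nonempty (G.Walk x y) := ⟨w0⟩
  refine le_ciInf fun w => ?_
  exact (hp ⟨w.bypass, w.bypass_isPath⟩).trans (wl_bypass hl w)

/-! ### Slopes in a sub-domain -/

variable {τ ct c s : V → ℝ}

/-- The bound for a vertex of `U` and a neighbour in `U ∪ P`. -/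
theorem IsCoord.adj (hC : IsCoord G l U P τ ct c s) (hl : ∀ e ∈ G.edgeSet, 0 < l e) {u v : V}
    (hu : u ∈ U) (hv : v ∈ U ∨ v ∈ P) (h : G.Adj u v) : |c u - c v| ≤ s u * l s(u, v) := by
  rcases hv with hv | hv
  · exact (hC.edge u v hu hv h).trans (mul_le_mul_of_nonneg_right (min_le_left _ _)
      (hl _ (G.mem_edgeSet.2 h)).le)
  · rw [hC.cP v hv]
    exact hC.dart u v hu hv h

theorem IsCoord.slope (hC : IsCoord G l U P τ ct c s) (hl : ∀ e ∈ G.edgeSet, 0 < l e) {θ : ℝ}
    {u v : V} (hu : u ∈ U) (hs : s u ≤ θ) (hv : v ∈ U ∨ v ∈ P) (h : G.Adj u v) :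
    |c u - c v| ≤ θ * l s(u, v) :=
  (hC.adj hl hu hv h).trans (mul_le_mul_of_nonneg_right hs (hl _ (G.mem_edgeSet.2 h)).le)

theorem IsCoord.slope_walk (hC : IsCoord G l U P τ ct c s) (hl : ∀ e ∈ G.edgeSet, 0 < l e) {θ : ℝ}
    {U' : Set V} (hU' : U' ⊆ U) (hs : ∀ v ∈ U', s v ≤ θ) {x y : V} (w : G.Walk x y)
    (hw : ∀ z ∈ w.support, z ∈ U') : |c x - c y| ≤ θ * wl l w := by
  induction w with
  | nil => simp
  | cons h w ih =>
    rename_i u v t
    have hu : u ∈ U' := hw u (by simp)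
    have hv : v ∈ U' := hw v (by simp)
    have h1 := ih (fun z hz => hw z (by simp [hz]))
    have h2 := hC.slope hl (hU' hu) (hs u hu) (Or.inl (hU' hv)) h
    have h3 := abs_sub_le (c u) (c v) (c t)
    rw [wl_cons]
    linarith

/-- **(a) for the new pieces** (`w' = c / θ`). -/
theorem IsCoord.child_a (hC : IsCoord G l U P τ ct c s) (hl : ∀ e ∈ G.edgeSet, 0 < l e) {θ : ℝ}
    (hθ : 0 < θ) {U' : Set V} (hU' : U' ⊆ U) (hs : ∀ v ∈ U', s v ≤ θ) {b b' v v' : V}
    (hb : b ∈ U ∨ b ∈ P) (hb' : b' ∈ U ∨ b' ∈ P) (w : G.Walk v v') (hw : ∀ z ∈ w.support, z ∈ U')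
    (h : G.Adj v b) (h' : G.Adj v' b') :
    |c b / θ - c b' / θ| ≤ l s(v, b) + wl l w + l s(v', b') := by
  have hv := hw v w.start_mem_support
  have hv' := hw v' w.end_mem_support
  have h1 := hC.slope hl (hU' hv) (hs v hv) hb h
  have h2 := hC.slope hl (hU' hv') (hs v' hv') hb' h'
  have h3 := hC.slope_walk hl hU' hs w hw
  rw [div_sub_div_same, abs_div, abs_of_pos hθ, div_le_iff₀ hθ]
  rw [abs_le] at *
  constructor <;> nlinarith

/-- The carried coordinate `c / θ` has slope at most `1` on `U'`. -/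
theorem IsCoord.carried (hC : IsCoord G l U P τ ct c s) (hl : ∀ e ∈ G.edgeSet, 0 < l e) {θ : ℝ}
    (hθ : 0 < θ) {u v : V} (hu : u ∈ U) (hs : s u ≤ θ) (hv : v ∈ U ∨ v ∈ P) (h : G.Adj u v) :
    |c u / θ - c v / θ| ≤ l s(u, v) := by
  have h1 := hC.slope hl hu hs hv h
  rw [div_sub_div_same, abs_div, abs_of_pos hθ, div_le_iff₀ hθ, mul_comm]
  exact h1

/-! ### Steep paths -/

/-- Steep steps: an edge of slope at least `θ`, or two vertices of `P` with (b). -/
def Steep (G : SimpleGraph V) (l : Sym2 V → ℝ) (P : Set V) (τ c : V → ℝ) (θ : ℝ) (x y : V) :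
    Prop :=
  (G.Adj x y ∧ θ * l s(x, y) ≤ c y - c x) ∨ (x ∈ P ∧ y ∈ P ∧ pathDist G l x y ≤ τ y - τ x)

/-- **(b) for the new pieces**: along a chain of steep steps. -/
theorem IsCoord.child_b (hC : IsCoord G l U P τ ct c s) (hc : G.Connected)
    (hl : ∀ e ∈ G.edgeSet, 0 < l e) {θ : ℝ} (hθ : 0 < θ) (hθ1 : θ ≤ 1) {x y : V}
    (h : Relation.ReflTransGen (Steep G l P τ c θ) x y) :
    pathDist G l x y ≤ c y / θ - c x / θ := by
  have key : θ * pathDist G l x y ≤ c y - c x := by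
    induction h with
    | refl =>
      have := dist_self_le hl x
      nlinarith
    | @tail y z _ hyz ih =>
      have h1 := dist_tri hc hl x y z
      have h2 : θ * pathDist G l y z ≤ c z - c y := by
        rcases hyz with ⟨h3, h4⟩ | ⟨h3, h4, h5⟩
        · exact (mul_le_mul_of_nonneg_left (dist_adj hl h3) hθ.le).trans h4
        · rw [hC.cP y h3, hC.cP z h4]
          have h6 : 0 ≤ pathDist G l y z := by
            have : Nonempty (G.Walk y z) := hc y z
            exact le_ciInf fun w => wl_nonneg hl w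
          nlinarith
      nlinarith
  rw [div_sub_div_same, le_div_iff₀ hθ, mul_comm]
  exact key

/-- Steep descent to `P`. -/
theorem IsCoord.descent [Finite V] (hC : IsCoord G l U P τ ct c s)
    (hl : ∀ e ∈ G.edgeSet, 0 < l e) {θ : ℝ} (hθ : 0 < θ) : ∀ v ∈ U, θ ≤ s v →
      ∃ b ∈ P, ∃ w : G.Walk v b, (∀ z ∈ w.support, z = b ∨ (z ∈ U ∧ θ ≤ s z)) ∧
        θ * wl l w ≤ c v - τ b := by
  by_contra hcon
  push Not at hcon
  obtain ⟨v0, hv0, hs0, hno0⟩ := hcon
  let B : Set V := {v | v ∈ U ∧ θ ≤ s v ∧ ∀ b ∈ P, ∀ w : G.Walk v b,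
    (∀ z ∈ w.support, z = b ∨ (z ∈ U ∧ θ ≤ s z)) → c v - τ b < θ * wl l w}
  obtain ⟨v, ⟨hvU, hvs, hno⟩, hmin⟩ := Set.exists_min_image B c (Set.toFinite B)
    ⟨v0, hv0, hs0, hno0⟩
  obtain ⟨y, hy, hadj, hsy, hval⟩ := hC.dn v hvU (lt_of_lt_of_le hθ hvs)
  have hlpos := hl _ (G.mem_edgeSet.2 hadj)
  have hrise : θ * l s(v, y) ≤ c v - c y := by
    rw [hval]
    exact mul_le_mul_of_nonneg_right hvs hlpos.le
  have hcy : c y < c v := by
    have := mul_pos hθ hlpos
    linarith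
  by_cases hyP : y ∈ P
  · have h1 := hno y hyP (Walk.cons hadj Walk.nil) (by
      intro z hz
      rw [Walk.support_cons, Walk.support_nil, List.mem_cons, List.mem_singleton] at hz
      rcases hz with rfl | rfl
      · exact Or.inr ⟨hvU, hvs⟩
      · exact Or.inl rfl)
    rw [wl_cons, wl_nil, add_zero, ← hC.cP y hyP] at h1
    linarith
  · have hyU : y ∈ U := hy.resolve_right hyP
    by_cases hyB : y ∈ B
    · exact absurd (hmin y hyB) (not_le.2 hcy)
    · apply hyB
      refine ⟨hyU, hvs.trans hsy, ?_⟩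
      intro b hb w hw
      have h1 := hno b hb (Walk.cons hadj w) (by
        intro z hz
        rw [Walk.support_cons, List.mem_cons] at hz
        rcases hz with rfl | hz
        · exact Or.inr ⟨hvU, hvs⟩
        · exact hw z hz)
      rw [wl_cons] at h1
      linarith

/-- Steep descent, distance form: `θ d(v, b) ≤ c v - τ b` for some `b ∈ P`. -/
theorem IsCoord.descent_dist [Finite V] (hC : IsCoord G l U P τ ct c s)
    (hl : ∀ e ∈ G.edgeSet, 0 < l e) {θ : ℝ} (hθ : 0 < θ) {v : V} (hv : v ∈ U) (hs : θ ≤ s v) :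
    ∃ b ∈ P, θ * pathDist G l v b ≤ c v - τ b := by
  obtain ⟨b, hb, w, -, h⟩ := hC.descent hl hθ v hv hs
  exact ⟨b, hb, (mul_le_mul_of_nonneg_left (dist_le_wl hl w) hθ.le).trans h⟩

/-- Variation along a walk inside `U`. -/
theorem IsCoord.variation (hC : IsCoord G l U P τ ct c s) {x y : V} (w : G.Walk x y)
    (hw : ∀ z ∈ w.support, z ∈ U) : |c x - c y| ≤
      (w.darts.map fun d => min (s d.fst) (s d.snd) * l s(d.fst, d.snd)).sum := by
  induction w with
  | nil => simp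
  | cons h w ih =>
    rename_i u v t
    have h1 := ih (fun z hz => hw z (by simp [hz]))
    have h2 := hC.edge u v (hw u (by simp)) (hw v (by simp)) h
    have h3 := abs_sub_le (c u) (c v) (c t)
    rw [Walk.darts_cons, List.map_cons, List.sum_cons]
    linarith

end Vale.Agent.P235.H510
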