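import Vale.Agent.P235.LL.Rows
import Vale.Agent.P235.H510.Child

/-! P235 LL: the axioms `IsDom` from `IsCoord` for every coordinate (CONTROL is a hypothesis). -/

namespace Vale.Agent.P235.H510

open SimpleGraph Vale.Agent.P235.LL

variable {V : Type} {G : SimpleGraph V} {l : Sym2 V → ℝ} {U P : Set V}

theorem dist_nonneg (hl : ∀ e ∈ G.edgeSet, 0 < l e) (x y : V) : 0 ≤ pathDist G l x y :=
  Real.iInf_nonneg fun w => wl_nonneg hl w

theorem dto_le (hl : ∀ e ∈ G.edgeSet, 0 < l e) {S : Set V} {b : V} (hb : b ∈ S) (x : V) :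
    dto G l S x ≤ pathDist G l x b :=
  ciInf_le (f := fun b : S => pathDist G l x b) ⟨0, by rintro _ ⟨b, rfl⟩; exact dist_nonneg hl x b⟩
    ⟨b, hb⟩

theorem tau_true (D : Dom V) (i : Fin 3) : D.tau (i, true) = D.w i := by
  funext b
  simp [Dom.tau]

theorem tau_false (D : Dom V) (i : Fin 3) : D.tau (i, false) = fun _ => 0 := by
  funext b
  simp [Dom.tau]

/-- a function which is nonexpansive on the edges meeting `U`, along a walk inside `U` -/
theorem lip_walk {f : V → ℝ} (hf : ∀ x ∈ U, ∀ y, G.Adj x y → |f x - f y| ≤ l s(x, y)) {x y : V}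
    (w : G.Walk x y) (hw : ∀ z ∈ w.support, z ∈ U) : |f x - f y| ≤ wl l w := by
  induction w with
  | nil => simp
  | cons h w ih =>
    rename_i u v t
    have h1 := ih (fun z hz => hw z (by simp [hz]))
    have h2 := hf u (hw u (by simp)) v h
    have h3 := abs_sub_le (f u) (f v) (f t)
    rw [wl_cons]
    linarith

/-- field `pos` -/
theorem IsCoord.pos [Finite V] {ct c s : V → ℝ} (hC : IsCoord G l U P (fun _ => 0) ct c s)
    (hl : ∀ e ∈ G.edgeSet, 0 < l e) (hP : ∀ b ∈ P, b ∉ U) {v : V} (hv : v ∈ U) :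
    s v * dto G l Uᶜ v ≤ c v := by
  rcases eq_or_lt_of_le (hC.s0 v) with h0 | h0
  · rw [← h0, zero_mul]
    exact hC.ge 0 (fun b _ => le_rfl) v hv
  · obtain ⟨b, hb, h⟩ := hC.descent_dist hl h0 hv le_rfl
    rw [sub_zero] at h
    exact (mul_le_mul_of_nonneg_left (dto_le hl (hP b hb) v) h0.le).trans h

theorem isDom_of [Finite V] (hl : ∀ e ∈ G.edgeSet, 0 < l e) (D : Dom V)
    (hpc : ∀ i, ∀ b ∈ D.P i, b ∉ D.U)
    (hcov : ∀ v b, D.Dart G v b → ∃ i, b ∈ D.P i)
    (hpd : ∀ i, ∀ b ∈ D.P i, ∀ b' ∈ D.P i, pathDist G l b b' ≤ |D.w i b - D.w i b'|)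
    (hcoord : ∀ k, ∃ ct, IsCoord G l D.U (D.P k.1) (D.tau k) ct (D.c k) (D.s k))
    (hSP : ∀ i, (SP G D.U (D.P i)).Nonempty)
    (hctrl : ∀ v b v' b', D.Dart G v b → D.Dart G v' b' →
      pathDist G l b b' ≤ 2 * ∑ k, |D.X l k v b - D.X l k v' b'|) : IsDom G l D where
  out := by
    obtain ⟨v, -, b, hb, -⟩ := hSP 0
    exact ⟨b, hb⟩
  one := by
    intro k
    obtain ⟨v, hv⟩ := hSP k.1
    obtain ⟨ct, hC⟩ := hcoord k
    exact ⟨v, hv.1, hC.sS v hv⟩
  s0 := fun k v => (hcoord k).choose_spec.s0 v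
  s1 := fun k v => (hcoord k).choose_spec.s1 v
  pc := hpc
  cover := hcov
  pd := hpd
  edge := by
    intro k v y hv hy h
    obtain ⟨ct, hC⟩ := hcoord k
    exact hC.edge v y hv hy h
  dart := by
    intro k v b hd
    obtain ⟨ct, hC⟩ := hcoord k
    by_cases hb : b ∈ D.P k.1
    · rw [Dom.X, if_pos hb]
      exact hC.dart v b hd.1 hb hd.2.2
    · rw [Dom.X, if_neg hb, hC.sS v ⟨hd.1, b, hd.2.1, hb, hd.2.2⟩, one_mul]
      have h1 := hl _ (G.mem_edgeSet.2 hd.2.2)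
      have h2 : D.c k v - (l s(v, b) + D.c k v) = - l s(v, b) := by ring
      rw [h2, abs_neg, abs_of_pos h1]
  ctrl := hctrl
  pos := by
    intro i v hv
    obtain ⟨ct, hC⟩ := hcoord (i, false)
    rw [tau_false] at hC
    exact hC.pos hl (hpc i) hv
  foot := by
    intro i v b hd
    by_cases hb : b ∈ D.P i
    · refine ⟨v, b, hd, hb, ?_⟩
      intro f _
      rw [Dom.X, if_pos hb, tau_false, sub_self, abs_zero]
    · obtain ⟨ct, hC⟩ := hcoord (i, false)
      rw [tau_false] at hC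
      have hvS : v ∈ SP G D.U (D.P i) := ⟨hd.1, b, hd.2.1, hb, hd.2.2⟩
      obtain ⟨v', a, w, hw, ha, hadj, hval⟩ := hC.ct_att v hd.1
      refine ⟨v', a, ⟨hw v' w.end_mem_support, hpc i a ha, hadj⟩, ha, ?_⟩
      intro f hf
      rw [Dom.X, if_neg hb, hC.cS v hvS, hval]
      have h1 := hf v hd.1 b hd.2.2
      have h2 := lip_walk hf w hw
      have h3 := hf v' (hw v' w.end_mem_support) a hadj
      rw [abs_le] at *
      constructor <;> linarith

end Vale.Agent.P235.H510
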