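import Vale.Agent.P235.LL.H611.GRows
import Vale.Agent.P235.H510.IsDomOf
import Vale.Agent.P235.LL.H21.CtrlDom

/-! P235 LL: `RowCoords` and `RowCtrl → RowIsDom`. -/

namespace Vale.Agent.P235.H510

open SimpleGraph Vale.Agent.P235.LL

variable {V : Type} {G : SimpleGraph V} {l : Sym2 V → ℝ}

/-- property (a) in the form used by `coord`, for `τ = w` -/
theorem condA_coord {U P : Set V} {w : V → ℝ} (h : CondA G l U P w) :
    ∀ b ∈ P, ∀ b' ∈ P, ∀ v v' (p : G.Walk v v'), (∀ z ∈ p.support, z ∈ U) → G.Adj v b →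
      G.Adj v' b' → w b' - w b ≤ l s(v, b) + wl l p + l s(v', b') := by
  intro b hb b' hb' v v' p hp h1 h2
  have h3 := (abs_le.1 (h b hb b' hb' v v' p hp h1 h2)).1
  linarith

theorem rowCoords : RowCoords := by
  intro V _ G l hS U P w hG
  have hex : ∀ k : Fin 3 × Bool, ∃ c s : V → ℝ, ∃ ct,
      IsCoord G l U (P k.1) (fun b => if k.2 = true then w k.1 b else 0) ct c s := by
    rintro ⟨i, t⟩
    have hP : ∃ v ∈ U, ∃ b ∈ P i, G.Adj v b := by
      obtain ⟨b, hb⟩ := hG.pne i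
      obtain ⟨v, hv, hadj⟩ := hG.foot i b hb
      exact ⟨v, hv, b, hb, hadj⟩
    cases t with
    | true =>
      obtain ⟨ct, c, s, h⟩ := coord hS.pos (hG.out i) hG.conn hP (condA_coord (hG.a i))
      exact ⟨c, s, ct, by simpa using h⟩
    | false =>
      obtain ⟨ct, c, s, h⟩ := coord (τ := fun _ => 0) hS.pos (hG.out i) hG.conn hP (by
        intro b hb b' hb' v v' p hp h1 h2
        have e1 := hS.pos _ (G.mem_edgeSet.2 h1)
        have e2 := hS.pos _ (G.mem_edgeSet.2 h2)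
        have e3 := wl_nonneg hS.pos p
        linarith)
      exact ⟨c, s, ct, by simpa using h⟩
  choose c s h using hex
  exact ⟨⟨U, P, w, c, s⟩, rfl, rfl, rfl, hG, h⟩

/-- every piece misses a boundary vertex -/
theorem sp_nonempty {U : Set V} {P : Fin 3 → Set V} {w : Fin 3 → V → ℝ} (hG : Vale.Agent.P235.LL.Good G l U P w)
    (m : Fin 3) : (SP G U (P m)).Nonempty := by
  have key : ∃ i, Disjoint (P i) (P m) := by
    obtain ⟨i, j, hij⟩ := hG.two
    rcases hG.disj m i with ⟨h, -⟩ | h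
    · exact ⟨j, by rw [h]; exact hij.symm⟩
    · exact ⟨i, h.symm⟩
  obtain ⟨i, hi⟩ := key
  obtain ⟨b, hb⟩ := hG.pne i
  obtain ⟨v, hv, hadj⟩ := hG.foot i b hb
  exact ⟨v, hv, b, fun hbU => Set.disjoint_left.1 (hG.out i) hbU hb,
    Set.disjoint_left.1 hi hb, hadj⟩

theorem rowCtrl : RowCtrl := by
  intro V _ G l hS D hD
  obtain ⟨hG, hC⟩ := hD
  choose ct hct using hC
  exact H21.ctrl_dom hS.conn hS.pos (fun v b hd => hG.cover v hd.1 b hd.2.1 hd.2.2) hG.b
    (fun i => condA_coord (hG.a i)) hct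

theorem rowIsDom_of (hctrl : RowCtrl) : RowIsDom := by
  intro V _ G l hS D hD
  obtain ⟨hG, hC⟩ := hD
  refine isDom_of hS.pos D (fun i b hb hbU => Set.disjoint_left.1 (hG.out i) hbU hb) ?_ hG.b hC
    (sp_nonempty hG) (hctrl V G l hS D ⟨hG, hC⟩)
  intro v b hd
  exact hG.cover v hd.1 b hd.2.1 hd.2.2

theorem rowIsDom : RowIsDom := rowIsDom_of rowCtrl

end Vale.Agent.P235.H510
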